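import Vale.Agent.P155.K1.State

/-!
# P155 block K1: extraction of subsequential limits, transfer of functionals
-/

namespace Vale.Agent.P155.K1

open Vale.Agent.P155 Finset MeasureTheory Filter Topology TopologicalSpace

variable {Ω : Set ℂ}

theorem dd_nonempty (T : Temp) : (DD T.V).Nonempty := by
  obtain ⟨m, hm⟩ := Temp.exists_pm T
  exact ⟨(m, m), Finset.mem_product.2 ⟨mem_PM.2 hm, mem_PM.2 hm⟩⟩

theorem region_eventually (hb : Bornology.IsBounded Ω) (S : TempApprox Ω) :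
    ∃ r : ℝ, 0 ≤ r ∧ Ω ⊆ Metric.closedBall 0 r ∧
      ∀ᶠ n in atTop, region (S.δ n) (S.a n) (S.T n).faceSet ⊆ Metric.closedBall 0 r := by
  obtain ⟨r0, hr0⟩ := hb.subset_closedBall 0
  refine ⟨max r0 0 + 1, by positivity, fun z hz => ?_, ?_⟩
  · have := hr0 hz
    rw [mem_closedBall_zero_iff] at this ⊢
    exact this.trans (by linarith [le_max_left r0 0])
  · filter_upwards [S.outer 1 one_pos] with n hn z hz
    obtain ⟨w, hw, hzw⟩ := Metric.mem_thickening_iff.1 (hn hz)
    have h1 := hr0 hw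
    rw [mem_closedBall_zero_iff] at h1 ⊢
    have h2 : ‖z‖ ≤ ‖w‖ + dist z w := by
      rw [dist_eq_norm]
      calc ‖z‖ = ‖w + (z - w)‖ := by rw [add_sub_cancel]
        _ ≤ _ := norm_add_le _ _
    linarith [le_max_left r0 0]

/-- **Extraction and transfer.** -/
theorem extract (hΩ : IsOpen Ω) (hb : Bornology.IsBounded Ω) (S : TempApprox Ω) (ns : ℕ → ℕ)
    (hns : StrictMono ns) :
    ∃ ms : ℕ → ℕ, StrictMono ms ∧ ∃ (Θ : Type) (_ : TopologicalSpace Θ) (_ : MeasurableSpace Θ)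
      (_ : BorelSpace Θ) (P : Measure Θ) (G : ℕ → Θ → NonemptyCompacts ℂ)
      (H : ℕ → Θ → (ℂ → ℝ) → ℝ), IsProbabilityMeasure P ∧
      (∀ k, Continuous (G k)) ∧ (∀ k φ, Continuous (fun x => H k x φ)) ∧
      (∀ x, ∃ n ω, LimOf S n ω (fun k => G k x) (fun k => H k x)) ∧
      (∀ x, ∀ k : ℕ, ∃ g : ℂ → ℝ, Measurable g ∧ (∀ z, |g z| ≤ k) ∧
        ∀ φ, IsTest Ω φ → H k x φ = ∫ z, g z * φ z) ∧
      ∀ (Y : ℕ → Conf → ℂ) (y : Θ → ℂ),
        (∀ x n ω, LimOf S n ω (fun k => G k x) (fun k => H k x) →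
          Tendsto (fun j => Y (n j) (ω j)) atTop (𝓝 (y x))) →
        Continuous y ∧ Tendsto (fun j => Ex (S.T (ns (ms j))).V (Y (ns (ms j)))) atTop
          (𝓝 (∫ x, y x ∂P)) := by
  obtain ⟨r, hr, hΩr, hreg⟩ := region_eventually hb S
  have hfin : volume Ω < ⊤ := (measure_mono hΩr).trans_lt
    (isCompact_closedBall (0 : ℂ) r).measure_lt_top
  have : IsFiniteMeasure (volume.restrict Ω) := ⟨by simpa using hfin⟩
  set μ : Measure ℂ := volume.restrict Ω with hμ
  let _ : MetricSpace (St r μ) := TopologicalSpace.metrizableSpaceMetric (St r μ)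
  let _ : MeasurableSpace (St r μ) := borel _
  have : BorelSpace (St r μ) := ⟨rfl⟩
  obtain ⟨ms, hms, μl, hlim⟩ := extract_abs (St := St r μ) (fun j => (S.T (ns j)).V)
    (fun j => dd_nonempty _) (fun j => stateOf S r hr μ (ns j))
  set V : ℕ → Finset Pt := fun j => (S.T (ns (ms j))).V with hV
  set X : ℕ → Conf → St r μ := fun j => stateOf S r hr μ (ns (ms j)) with hX
  have hne : ∀ j, (DD (V j)).Nonempty := fun j => dd_nonempty _
  have hlim' : Tendsto (lawP V hne X) atTop (𝓝 μl) := hlim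
  have hnm : Tendsto (fun j => ns (ms j)) atTop atTop :=
    hns.tendsto_atTop.comp hms.tendsto_atTop
  have key : ∀ (s : St r μ) (n : ℕ → ℕ) (ω : ℕ → Conf), Tendsto n atTop atTop →
      (∀ j, ω j ∈ DD (V (n j))) → Tendsto (fun j => X (n j) (ω j)) atTop (𝓝 s) →
      LimOf S (fun j => ns (ms (n j))) ω (fun k => Gs r μ k s) (fun k => Hs r μ k s) :=
    fun s n ω hn hω hs => limOf_of_tendsto S r hr hΩ.measurableSet hreg (hnm.comp hn) hω hs
  have hLPm : MeasurableSet (LP V X) := (isClosed_LP V X).measurableSet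
  refine ⟨ms, hms, LP V X, inferInstance, inferInstance, inferInstance,
    Measure.comap Subtype.val (μl : Measure (St r μ)), fun k x => Gs r μ k x.1,
    fun k x φ => Hs r μ k x.1 φ, ?_, ?_, ?_, ?_, ?_, ?_⟩
  · constructor
    rw [comap_subtype_coe_apply hLPm, Set.image_univ, Subtype.range_coe]
    exact (prob_compl_eq_zero_iff hLPm).1 (measure_LP V hne X hlim')
  · exact fun k => (continuous_Gs r μ k).comp continuous_subtype_val
  · exact fun k φ => (continuous_Hs r μ k φ).comp continuous_subtype_val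
  · intro x
    obtain ⟨n, ω, hn, hω, hs⟩ := exists_tendsto_of_mem_LP x.2
    exact ⟨_, ω, key x.1 n ω hn hω hs⟩
  · intro x k
    obtain ⟨g, hg1, hg2, hg3⟩ := exists_rep μ (Nat.cast_nonneg k) (x.1.2 k).1 (x.1.2 k).2
    refine ⟨g, hg1, hg2, fun φ hφ => ?_⟩
    have hm : MemLp φ 2 μ := (test_memLp hφ 2 volume).restrict Ω
    have e1 : Hs r μ k x.1 φ = ∫ z, g z * (hm.toLp φ) z ∂μ := by
      unfold Hs
      rw [dif_pos hm, hg3]
    have e2 : ∫ z, g z * (hm.toLp φ) z ∂μ = ∫ z, g z * φ z ∂μ := by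
      apply integral_congr_ae
      filter_upwards [hm.coeFn_toLp] with z hz
      rw [hz]
    show Hs r μ k x.1 φ = _
    rw [e1, e2, hμ, ← integral_indicator hΩ.measurableSet]
    congr 1
    funext z
    by_cases hz : z ∈ Ω
    · rw [Set.indicator_of_mem hz]
    · rw [Set.indicator_of_notMem hz, test_zero_off hφ hz, mul_zero]
  · intro Y y hy
    exact transfer_abs V hne X hlim' (fun j => Y (ns (ms j))) y
      (fun s n ω hn hω hs => hy s _ ω (key s.1 n ω hn hω hs))

end Vale.Agent.P155.K1
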