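import Vale.Agent.P155.K1.State

/-!
# P155 block K1/K6: properties of limits of configurations (deterministic)
-/

namespace Vale.Agent.P155.K1

open Vale.Agent.P155 Finset MeasureTheory Filter Topology TopologicalSpace

variable {Ω : Set ℂ}

namespace LimOf

variable {S : TempApprox Ω} {n : ℕ → ℕ} {ω : ℕ → Conf} {G : ℕ → NonemptyCompacts ℂ}
  {H : ℕ → (ℂ → ℝ) → ℝ}

theorem coe_gasket (h : LimOf S n ω G H) (j k : ℕ) :
    ((toNC (P155.gasket (S.δ (n j)) (S.a (n j)) (S.T (n j)) k (ω j)) : NonemptyCompacts ℂ) : Set ℂ)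
      = P155.gasket (S.δ (n j)) (S.a (n j)) (S.T (n j)) k (ω j) :=
  KConn.coe_toNC_gasket (S.pos _) _ _ _ (h.mem j)

theorem infDist_tendsto (h : LimOf S n ω G H) (k : ℕ) (z : ℂ) :
    Tendsto (fun j => Metric.infDist z
      (P155.gasket (S.δ (n j)) (S.a (n j)) (S.T (n j)) k (ω j))) atTop
      (𝓝 (Metric.infDist z (G k))) := by
  have h1 := ((Metric.lipschitz_infDist_set z).continuous.tendsto (G k)).comp
    (h.gasket k)
  refine h1.congr (fun j => ?_)
  show Metric.infDist z ((toNC (P155.gasket (S.δ (n j)) (S.a (n j)) (S.T (n j)) k (ω j)) :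
    NonemptyCompacts ℂ) : Set ℂ) = _
  rw [h.coe_gasket]

theorem mono (h : LimOf S n ω G H) (k : ℕ) : (G k : Set ℂ) ⊆ G (k + 1) := by
  intro z hz
  have h0 : Metric.infDist z (G k) = 0 := Metric.infDist_zero_of_mem hz
  have h1 := h.infDist_tendsto k z
  have h2 := h.infDist_tendsto (k + 1) z
  have hle : Metric.infDist z (G (k + 1)) ≤ Metric.infDist z (G k) := by
    refine le_of_tendsto_of_tendsto' h2 h1 (fun j => ?_)
    exact Metric.infDist_le_infDist_of_subset (KConn.gasket_mono _ _ _ _ (Nat.le_succ k))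
      (KConn.gasket_nonempty (S.pos _) _ _ _ (h.mem j))
  rw [h0] at hle
  rw [(G (k + 1)).isCompact.isClosed.mem_iff_infDist_zero (G (k + 1)).nonempty]
  exact le_antisymm hle Metric.infDist_nonneg

theorem sub_closure (h : LimOf S n ω G H) (k : ℕ) : (G k : Set ℂ) ⊆ closure Ω := by
  intro z hz
  have h0 : Metric.infDist z (G k) = 0 := Metric.infDist_zero_of_mem hz
  have h1 := h.infDist_tendsto k z
  rw [h0] at h1
  rw [Metric.mem_closure_iff]
  intro ε hε
  have e1 := (tendsto_order.1 h1).2 (ε / 2) (by positivity)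
  have e2 := h.lim.eventually (S.outer (ε / 2) (by positivity))
  obtain ⟨j, hj1, hj2⟩ := (e1.and e2).exists
  obtain ⟨w, hw, hwd⟩ := (Metric.infDist_lt_iff
    (KConn.gasket_nonempty (S.pos _) _ _ _ (h.mem j))).1 hj1
  obtain ⟨v, hv, hvd⟩ := Metric.mem_thickening_iff.1 (hj2 hw.1)
  exact ⟨v, hv, (dist_triangle z w v).trans_lt (by linarith)⟩

theorem conn (h : LimOf S n ω G H) (k : ℕ) : IsConnected (G k : Set ℂ) := by
  refine KConn.isClosed_connected.mem_of_tendsto (h.gasket k) (Eventually.of_forall fun j => ?_)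
  show IsConnected ((toNC (P155.gasket (S.δ (n j)) (S.a (n j)) (S.T (n j)) k (ω j)) :
    NonemptyCompacts ℂ) : Set ℂ)
  rw [h.coe_gasket]
  exact KConn.gasket_conn (S.pos _) _ _ _ (h.mem j)

theorem zero_gasket (h : LimOf S n ω G H) (hb : Bornology.IsBounded Ω) :
    (G 0 : Set ℂ) = frontier Ω := by
  have hcl : IsClosed (frontier Ω) := isClosed_frontier
  have hbd : Bornology.IsBounded (frontier Ω) := (hb.closure).subset frontier_subset_closure
  apply Set.Subset.antisymm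
  · intro z hz
    have h0 : Metric.infDist z (G 0) = 0 := Metric.infDist_zero_of_mem hz
    have h1 := h.infDist_tendsto 0 z
    rw [h0] at h1
    rw [← hcl.closure_eq, Metric.mem_closure_iff]
    intro ε hε
    have e1 := (tendsto_order.1 h1).2 (ε / 2) (by positivity)
    have e2 := h.lim.eventually (S.haus₁ (ε / 2) (by positivity))
    obtain ⟨j, hj1, hj2⟩ := (e1.and e2).exists
    obtain ⟨w, hw, hwd⟩ := (Metric.infDist_lt_iff
      (KConn.gasket_nonempty (S.pos _) _ _ _ (h.mem j))).1 hj1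
    rw [KConn.gasket_zero (S.pos _)] at hw
    obtain ⟨v, hv, hvd⟩ := Metric.mem_thickening_iff.1 (hj2 hw)
    exact ⟨v, hv, (dist_triangle z w v).trans_lt (by linarith)⟩
  · intro z hz
    rw [(G 0).isCompact.isClosed.mem_iff_infDist_zero (G 0).nonempty]
    refine le_antisymm ?_ Metric.infDist_nonneg
    refine le_of_forall_pos_le_add (fun ε hε => ?_)
    rw [zero_add]
    refine le_of_tendsto (h.infDist_tendsto 0 z) ?_
    filter_upwards [h.lim.eventually (S.haus₂ ε hε)] with j hj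
    obtain ⟨w, hw, hwd⟩ := Metric.mem_thickening_iff.1 (hj hz)
    rw [KConn.gasket_zero (S.pos _)]
    exact (Metric.infDist_le_dist_of_mem hw).trans hwd.le

theorem zero_field (h : LimOf S n ω G H) {φ : ℂ → ℝ} (hφ : IsTest Ω φ) : H 0 φ = 0 := by
  refine tendsto_nhds_unique (h.field 0 φ hφ) ?_
  have : (fun j => heightInt (S.δ (n j)) (S.a (n j)) 0 (ω j) φ) = fun _ => 0 := by
    funext j
    unfold heightInt
    rw [show (fun f : Pt => (hk 0 (ω j) f : ℝ) * ∫ z in sqr (S.δ (n j)) (S.a (n j)) f, φ z) =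
      fun _ => 0 from ?_]
    · exact finsum_zero
    · funext f
      rw [HT.hk_zero (h.mem j)]
      simp
  rw [this]
  exact tendsto_const_nhds

end LimOf

/-! ### constancy of the increments -/

theorem eventually_mem_sqr {δ : ℝ} (hδ : 0 < δ) (a z : ℂ) :
    ∀ᶠ w in 𝓝 z, z ∈ sqr δ a (K.cell δ a w) := by
  have hopen : IsOpen {w | ((⌈KConn.gx δ a z⌉ : ℝ) - 1 < KConn.gx δ a w ∧
      KConn.gx δ a w < ⌊KConn.gx δ a z⌋ + 1) ∧
    ((⌈KConn.gy δ a z⌉ : ℝ) - 1 < KConn.gy δ a w ∧ KConn.gy δ a w < ⌊KConn.gy δ a z⌋ + 1)} := by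
    refine IsOpen.inter (IsOpen.inter ?_ ?_) (IsOpen.inter ?_ ?_)
    · exact isOpen_lt continuous_const KConn.gx_cont
    · exact isOpen_lt KConn.gx_cont continuous_const
    · exact isOpen_lt continuous_const KConn.gy_cont
    · exact isOpen_lt KConn.gy_cont continuous_const
  have hmem : z ∈ {w | ((⌈KConn.gx δ a z⌉ : ℝ) - 1 < KConn.gx δ a w ∧
      KConn.gx δ a w < ⌊KConn.gx δ a z⌋ + 1) ∧
    ((⌈KConn.gy δ a z⌉ : ℝ) - 1 < KConn.gy δ a w ∧ KConn.gy δ a w < ⌊KConn.gy δ a z⌋ + 1)} := by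
    refine ⟨⟨?_, ?_⟩, ⟨?_, ?_⟩⟩
    · have := Int.ceil_lt_add_one (KConn.gx δ a z); linarith
    · exact Int.lt_floor_add_one _
    · have := Int.ceil_lt_add_one (KConn.gy δ a z); linarith
    · exact Int.lt_floor_add_one _
  filter_upwards [hopen.mem_nhds hmem] with w hw
  obtain ⟨⟨h1, h2⟩, ⟨h3, h4⟩⟩ := hw
  have key : ∀ x y : ℝ, (⌈x⌉ : ℝ) - 1 < y → y < ⌊x⌋ + 1 → (⌊y⌋ : ℝ) ≤ x ∧ x ≤ ⌊y⌋ + 1 := by
    intro x y h1 h2
    constructor
    · have h5 : ⌊y⌋ < ⌊x⌋ + 1 := Int.floor_lt.2 (by push_cast; exact h2)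
      have h6 : ⌊y⌋ ≤ ⌊x⌋ := by omega
      exact (Int.cast_le.2 h6).trans (Int.floor_le x)
    · have h5 : ⌈x⌉ - 1 ≤ ⌊y⌋ := Int.le_floor.2 (by push_cast; exact h1.le)
      have h6 : (⌈x⌉ : ℝ) ≤ ⌊y⌋ + 1 := by exact_mod_cast (by omega : ⌈x⌉ ≤ ⌊y⌋ + 1)
      exact (Int.le_ceil x).trans h6
  obtain ⟨k1, k2⟩ := key _ _ h1 h2
  obtain ⟨k3, k4⟩ := key _ _ h3 h4
  rw [KConn.mem_sqr hδ]
  exact ⟨k1, k2, k3, k4⟩

theorem mem_sqr_cell {δ : ℝ} (hδ : 0 < δ) (a z : ℂ) : z ∈ sqr δ a (K.cell δ a z) :=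
  cell_sub_sqr δ hδ a _ rfl

/-- the increment of the height at a cell -/
noncomputable def inc (δ : ℝ) (a : ℂ) (k : ℕ) (ω : Conf) (z : ℂ) : ℤ :=
  hk (k + 1) ω (K.cell δ a z) - hk k ω (K.cell δ a z)

theorem inc_eq {δ : ℝ} (hδ : 0 < δ) {a z : ℂ} {T : Temp} {ω : Conf} (hω : ω ∈ DD T.V) {k : ℕ}
    (hz : z ∈ interior (region δ a (Ok T (k + 1) ω))) {f g : Pt} (hf : z ∈ sqr δ a f)
    (hg : z ∈ sqr δ a g) :
    hk (k + 1) ω f - hk k ω f = hk (k + 1) ω g - hk k ω g := by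
  rw [KConn.mem_interior_region_iff hδ] at hz
  have hN : ∀ q, z ∈ sqr δ a q → k + 1 ≤ N ω q := fun q hq => (hz q hq).2
  obtain ⟨h1, h2, h3, h4⟩ := KConn.close_of_meet hδ hf hg
  have hmid : z ∈ sqr δ a (f.1, g.2) := by
    rw [KConn.mem_sqr hδ] at hf hg ⊢
    exact ⟨hf.1, hf.2.1, hg.2.2.1, hg.2.2.2⟩
  have step1 : hk (k + 1) ω f - hk k ω f = hk (k + 1) ω (f.1, g.2) - hk k ω (f.1, g.2) := by
    by_cases he : f.2 = g.2
    · rw [← he]
    · apply hk_succ_sub_adj hω _ (hN _ hf) (hN _ hmid)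
      unfold Adj
      simp only [sub_self, abs_zero, zero_add]
      rcases lt_or_gt_of_ne he with h | h
      · rw [abs_eq (by norm_num)]; right; omega
      · rw [abs_eq (by norm_num)]; left; omega
  have step2 : hk (k + 1) ω (f.1, g.2) - hk k ω (f.1, g.2) = hk (k + 1) ω g - hk k ω g := by
    by_cases he : f.1 = g.1
    · rw [he]
    · apply hk_succ_sub_adj hω _ (hN _ hmid) (hN _ hg)
      unfold Adj
      simp only [sub_self, abs_zero, add_zero]
      rcases lt_or_gt_of_ne he with h | h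
      · rw [abs_eq (by norm_num)]; right; omega
      · rw [abs_eq (by norm_num)]; left; omega
  exact step1.trans step2

theorem inc_const {δ : ℝ} (hδ : 0 < δ) {a : ℂ} {T : Temp} {ω : Conf} (hω : ω ∈ DD T.V) {k : ℕ}
    {A : Set ℂ} (hA : IsPreconnected A) (hsub : A ⊆ interior (region δ a (Ok T (k + 1) ω)))
    {z w : ℂ} (hz : z ∈ A) (hw : w ∈ A) : inc δ a k ω z = inc δ a k ω w := by
  have : PreconnectedSpace A := isPreconnected_iff_preconnectedSpace.1 hA
  have hloc : IsLocallyConstant (fun x : A => inc δ a k ω x) := by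
    rw [IsLocallyConstant.iff_eventually_eq]
    intro x
    have h1 : ∀ᶠ y in 𝓝 (x : ℂ), (x : ℂ) ∈ sqr δ a (K.cell δ a y) := eventually_mem_sqr hδ a x
    have h2 : ∀ᶠ y : A in 𝓝 x, (x : ℂ) ∈ sqr δ a (K.cell δ a y) :=
      (continuous_subtype_val.tendsto x).eventually h1
    filter_upwards [h2] with y hy
    exact inc_eq hδ hω (hsub x.2) hy (mem_sqr_cell hδ a x)
  exact hloc.apply_eq_of_preconnectedSpace ⟨z, hz⟩ ⟨w, hw⟩

theorem inc_pm {δ : ℝ} (hδ : 0 < δ) {a : ℂ} {T : Temp} {ω : Conf} (hω : ω ∈ DD T.V) {k : ℕ}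
    {z : ℂ} (hz : z ∈ interior (region δ a (Ok T (k + 1) ω))) :
    inc δ a k ω z = 1 ∨ inc δ a k ω z = -1 := by
  rw [KConn.mem_interior_region_iff hδ] at hz
  exact hk_succ_sub_pm hω (hz _ (mem_sqr_cell hδ a z)).2

theorem heightInt_sub {δ : ℝ} (hδ : 0 < δ) {a : ℂ} {T : Temp} {ω : Conf} (hω : ω ∈ DD T.V)
    {k : ℕ} {A : Set ℂ} (hA : IsPreconnected A)
    (hsub : A ⊆ interior (region δ a (Ok T (k + 1) ω))) (hne : A.Nonempty) :
    ∃ s : ℝ, (s = 1 ∨ s = -1) ∧ ∀ φ : ℂ → ℝ, Integrable φ → (∀ z, z ∉ A → φ z = 0) →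
      heightInt δ a (k + 1) ω φ - heightInt δ a k ω φ = s * ∫ z, φ z := by
  obtain ⟨z0, hz0⟩ := hne
  refine ⟨(inc δ a k ω z0 : ℝ), ?_, fun φ hφ hoff => ?_⟩
  · rcases inc_pm hδ hω (hsub hz0) with h | h
    · left; rw [h]; norm_num
    · right; rw [h]; norm_num
  · have hT := (Skel.a_fin T).2.1
    rw [heightInt_eq hω hT hδ a _ hφ, heightInt_eq hω hT hδ a _ hφ, ← integral_sub,
      ← integral_const_mul]
    · congr 1
      funext z
      by_cases hz : z ∈ A
      · have := inc_const hδ hω hA hsub hz hz0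
        have h2 : step δ a (k + 1) ω z - step δ a k ω z = (inc δ a k ω z : ℝ) := by
          unfold step inc; push_cast; ring
        rw [← sub_mul, h2, this]
      · rw [hoff z hz]; simp
    · exact hφ.bdd_mul (measurable_step δ a _ ω).aestronglyMeasurable
        (Eventually.of_forall fun z => by
          rw [Real.norm_eq_abs]; exact abs_step_le hω δ a _ z)
    · exact hφ.bdd_mul (measurable_step δ a _ ω).aestronglyMeasurable
        (Eventually.of_forall fun z => by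
          rw [Real.norm_eq_abs]; exact abs_step_le hω δ a _ z)

theorem IsTest_mono {U W : Set ℂ} (h : U ⊆ W) {φ : ℂ → ℝ} (hφ : IsTest U φ) : IsTest W φ :=
  ⟨hφ.1, hφ.2.1, hφ.2.2.trans h⟩

namespace LimOf

variable {S : TempApprox Ω} {n : ℕ → ℕ} {ω : ℕ → Conf} {G : ℕ → NonemptyCompacts ℂ}
  {H : ℕ → (ℂ → ℝ) → ℝ}

theorem sign (h : LimOf S n ω G H) (k : ℕ) {z : ℂ} {r : ℝ} (hr : 0 < r)
    (hz : Metric.closedBall z r ⊆ Ω) (hd : Disjoint (Metric.closedBall z r) (G (k + 1) : Set ℂ)) :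
    ∃ s : ℝ, (s = 1 ∨ s = -1) ∧
      ∀ φ, IsTest (Metric.ball z r) φ → H (k + 1) φ - H k φ = s * ∫ w, φ w := by
  -- eventually the closed ball is inside the union of the faces of `O^{(k+1)}`
  have e1 := h.lim.eventually (S.cara₁ (Metric.closedBall z r) hz (isCompact_closedBall z r))
  set B : NonemptyCompacts ℂ := ⟨⟨Metric.closedBall z r, isCompact_closedBall z r⟩,
    ⟨z, Metric.mem_closedBall_self hr.le⟩⟩ with hB
  have e2 : ∀ᶠ j in atTop, Disjoint (B : Set ℂ)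
      ((toNC (P155.gasket (S.δ (n j)) (S.a (n j)) (S.T (n j)) (k + 1) (ω j)) :
        NonemptyCompacts ℂ) : Set ℂ) := by
    have hopen := NonemptyCompacts.isOpen_setOfPred_disjoint_coe (α := ℂ)
    have hmem : (B, G (k + 1)) ∈ {p : NonemptyCompacts ℂ × NonemptyCompacts ℂ |
        Disjoint (p.1 : Set ℂ) p.2} := hd
    have ht : Tendsto (fun j => (B, (toNC (P155.gasket (S.δ (n j)) (S.a (n j)) (S.T (n j))
        (k + 1) (ω j)) : NonemptyCompacts ℂ))) atTop (𝓝 (B, G (k + 1))) :=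
      tendsto_const_nhds.prodMk_nhds (h.gasket (k + 1))
    exact ht.eventually (hopen.mem_nhds hmem)
  have e3 : ∀ᶠ j in atTop, ∃ s : ℝ, (s = 1 ∨ s = -1) ∧ ∀ φ, IsTest (Metric.ball z r) φ →
      heightInt (S.δ (n j)) (S.a (n j)) (k + 1) (ω j) φ -
        heightInt (S.δ (n j)) (S.a (n j)) k (ω j) φ = s * ∫ w, φ w := by
    filter_upwards [e1, e2] with j h1 h2
    rw [h.coe_gasket] at h2
    have hsub : Metric.closedBall z r ⊆
        interior (region (S.δ (n j)) (S.a (n j)) (Ok (S.T (n j)) (k + 1) (ω j))) := by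
      intro w hw
      by_contra hw'
      exact Set.disjoint_left.1 h2 hw ⟨interior_subset (h1 hw), hw'⟩
    obtain ⟨s, hs, hs'⟩ := heightInt_sub (S.pos (n j)) (h.mem j)
      (convex_closedBall z r).isPreconnected hsub ⟨z, Metric.mem_closedBall_self hr.le⟩
    refine ⟨s, hs, fun φ hφ => hs' φ (test_integrable hφ) (fun w hw => ?_)⟩
    exact test_zero_off hφ (fun h' => hw (Metric.ball_subset_closedBall h'))
  -- choose a sign which occurs infinitely often
  have e4 : ∃ s : ℝ, (s = 1 ∨ s = -1) ∧ ∃ᶠ j in atTop, ∀ φ, IsTest (Metric.ball z r) φ →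
      heightInt (S.δ (n j)) (S.a (n j)) (k + 1) (ω j) φ -
        heightInt (S.δ (n j)) (S.a (n j)) k (ω j) φ = s * ∫ w, φ w := by
    by_contra hcon
    push Not at hcon
    have c1 := hcon 1 (Or.inl rfl)
    have c2 := hcon (-1) (Or.inr rfl)
    obtain ⟨j, ⟨s, hs, hs'⟩, ⟨φ1, h1, h1'⟩, ⟨φ2, h2, h2'⟩⟩ := (e3.and (c1.and c2)).exists
    rcases hs with rfl | rfl
    · exact h1' (hs' φ1 h1)
    · exact h2' (hs' φ2 h2)
  obtain ⟨s, hs, hfr⟩ := e4
  refine ⟨s, hs, fun φ hφ => ?_⟩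
  have hφΩ : IsTest Ω φ := IsTest_mono (Metric.ball_subset_closedBall.trans hz) hφ
  have hlim := (h.field (k + 1) φ hφΩ).sub (h.field k φ hφΩ)
  by_contra hne
  have := hlim.eventually (isOpen_ne.mem_nhds hne)
  obtain ⟨j, hj1, hj2⟩ := (hfr.and_eventually this).exists
  exact hj2 (hj1 φ hφ)

end LimOf

end Vale.Agent.P155.K1
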