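import Vale.Agent.P155.K1.Extract
import Vale.Agent.P155.K1.Props

/-!
# P155 block K1: the subsequential limit and all its properties except `null`, `gff`
-/

namespace Vale.Agent.P155.K1

open Vale.Agent.P155 Finset MeasureTheory Filter Topology TopologicalSpace

variable {Ω : Set ℂ}

theorem Ex_ofReal (V : Finset Pt) (f : Conf → ℝ) :
    Ex V (fun ω => (f ω : ℂ)) = ((Ex V f : ℝ) : ℂ) := by
  unfold Ex
  rw [smul_eq_mul, Complex.ofReal_mul, Complex.ofReal_sum, Complex.real_smul]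

/-- **K1.** Every subsequence has a further subsequence along which the laws of the gaskets and of
the fields converge jointly, and the limit satisfies all fields of `IsSignedCarpets` except `null`,
`gff` and the measurability of the Green energies. -/
theorem k1_main (hΩ : IsOpen Ω) (hb : Bornology.IsBounded Ω) (S : TempApprox Ω) (ns : ℕ → ℕ)
    (hns : StrictMono ns) :
    ∃ ms : ℕ → ℕ, StrictMono ms ∧
    ∃ (Θ : Type) (_ : MeasurableSpace Θ) (P : Measure Θ) (G : ℕ → Θ → NonemptyCompacts ℂ)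
      (H : ℕ → Θ → (ℂ → ℝ) → ℝ), IsProbabilityMeasure P ∧
      (∀ k, @Measurable _ _ _ (borel (NonemptyCompacts ℂ)) (G k)) ∧
      (∀ k φ, IsTest Ω φ → Measurable (fun x => H k x φ)) ∧
      (∀ᵐ x ∂P, (G 0 x : Set ℂ) = frontier Ω ∧ ∀ φ, IsTest Ω φ → H 0 x φ = 0) ∧
      (∀ᵐ x ∂P, ∀ k : ℕ, ∃ g : ℂ → ℝ, Measurable g ∧ (∀ z, |g z| ≤ k) ∧
        ∀ φ, IsTest Ω φ → H k x φ = ∫ z, g z * φ z) ∧
      (∀ᵐ x ∂P, ∀ k, (G k x : Set ℂ) ⊆ G (k + 1) x ∧ (G k x : Set ℂ) ⊆ closure Ω) ∧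
      (∀ᵐ x ∂P, ∀ k, IsConnected (G k x : Set ℂ)) ∧
      (∀ᵐ x ∂P, ∀ k, ∀ z r, 0 < r → Metric.closedBall z r ⊆ Ω →
        Disjoint (Metric.closedBall z r) (G (k + 1) x : Set ℂ) → ∃ s : ℝ, (s = 1 ∨ s = -1) ∧
        ∀ φ, IsTest (Metric.ball z r) φ → H (k + 1) x φ - H k x φ = s * ∫ w, φ w) ∧
      ∀ (k m : ℕ) (χ : Fin m → ℂ → ℝ), (∀ i, IsTest Ω (χ i)) →
      ∀ F : (Fin k → NonemptyCompacts ℂ) × (Fin k → Fin m → ℝ) → ℝ, Continuous F →
        (∃ C, ∀ y, |F y| ≤ C) →
        Tendsto (fun j => let n := ns (ms j)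
          Ex (S.T n).V (fun ω => F (fun l => toNC (gasket (S.δ n) (S.a n) (S.T n) l ω),
            fun l i => heightInt (S.δ n) (S.a n) l ω (χ i)))) atTop
          (𝓝 (∫ x, F (fun l => G l x, fun l i => H l x (χ i)) ∂P)) := by
  obtain ⟨ms, hms, Θ, tΘ, mΘ, bΘ, P, G, H, hP, hG, hH, hlim, hrep, htr⟩ := extract hΩ hb S ns hns
  refine ⟨ms, hms, Θ, mΘ, P, G, H, hP, ?_, ?_, ?_, ?_, ?_, ?_, ?_, ?_⟩
  · intro k
    let _ : MeasurableSpace (NonemptyCompacts ℂ) := borel _
    have : BorelSpace (NonemptyCompacts ℂ) := ⟨rfl⟩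
    exact (hG k).measurable
  · exact fun k φ _ => (hH k φ).measurable
  · refine Eventually.of_forall fun x => ?_
    obtain ⟨n, ω, h⟩ := hlim x
    exact ⟨h.zero_gasket hb, fun φ hφ => h.zero_field hφ⟩
  · exact Eventually.of_forall fun x k => hrep x k
  · refine Eventually.of_forall fun x k => ?_
    obtain ⟨n, ω, h⟩ := hlim x
    exact ⟨h.mono k, h.sub_closure k⟩
  · refine Eventually.of_forall fun x k => ?_
    obtain ⟨n, ω, h⟩ := hlim x
    exact h.conn k
  · refine Eventually.of_forall fun x k z r hr hz hd => ?_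
    obtain ⟨n, ω, h⟩ := hlim x
    exact h.sign k hr hz hd
  · intro k m χ hχ F hF _
    have hF' : Continuous (fun y => (F y : ℂ)) := Complex.continuous_ofReal.comp hF
    obtain ⟨hc, ht⟩ := htr
      (fun n ω => ((F (fun l => toNC (gasket (S.δ n) (S.a n) (S.T n) l ω),
        fun l i => heightInt (S.δ n) (S.a n) l ω (χ i)) : ℝ) : ℂ))
      (fun x => ((F (fun l => G l x, fun l i => H l x (χ i)) : ℝ) : ℂ))
      (fun x n ω h => by
        refine (hF'.tendsto _).comp ?_
        refine Tendsto.prodMk_nhds ?_ ?_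
        · rw [tendsto_pi_nhds]
          exact fun l => h.gasket l
        · rw [tendsto_pi_nhds]
          intro l
          rw [tendsto_pi_nhds]
          exact fun i => h.field l (χ i) (hχ i))
    have h2 := (Complex.continuous_re.tendsto _).comp ht
    rw [integral_complex_ofReal, Complex.ofReal_re] at h2
    refine h2.congr (fun j => ?_)
    simp only [Function.comp_apply]
    rw [Ex_ofReal, Complex.ofReal_re]

end Vale.Agent.P155.K1
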