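import Mathlib

/-!
# P155 block K1: integral of `|z - z0|⁻²` over an annulus
-/

namespace Vale.Agent.P155.K1

open MeasureTheory Set

theorem polar_zero {r ρ : ℝ} (hr : 0 < r) (hρ : r < ρ) :
    ∫ z : ℂ, Set.indicator {z : ℂ | r ≤ ‖z‖ ∧ ‖z‖ ≤ ρ} (fun z => (‖z‖ ^ 2)⁻¹) z =
      2 * Real.pi * Real.log (ρ / r) := by
  have h := integral_fun_norm_addHaar (volume : Measure ℂ)
    (fun y : ℝ => Set.indicator (Set.Icc r ρ) (fun y => (y ^ 2)⁻¹) y)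
  have e : (fun z : ℂ => Set.indicator {z : ℂ | r ≤ ‖z‖ ∧ ‖z‖ ≤ ρ} (fun z => (‖z‖ ^ 2)⁻¹) z) =
      fun z : ℂ => Set.indicator (Set.Icc r ρ) (fun y => (y ^ 2)⁻¹) ‖z‖ := by
    funext z
    by_cases h : r ≤ ‖z‖ ∧ ‖z‖ ≤ ρ
    · rw [Set.indicator_of_mem (show z ∈ {z : ℂ | r ≤ ‖z‖ ∧ ‖z‖ ≤ ρ} from h),
        Set.indicator_of_mem (show ‖z‖ ∈ Set.Icc r ρ from h)]
    · rw [Set.indicator_of_notMem (show z ∉ {z : ℂ | r ≤ ‖z‖ ∧ ‖z‖ ≤ ρ} from h),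
        Set.indicator_of_notMem (show ‖z‖ ∉ Set.Icc r ρ from h)]
  rw [e, h]
  have h2 : ∫ y in Set.Ioi (0 : ℝ), y ^ (Module.finrank ℝ ℂ - 1) •
      Set.indicator (Set.Icc r ρ) (fun y => (y ^ 2)⁻¹) y = Real.log (ρ / r) := by
    rw [Complex.finrank_real_complex]
    have e1 : ∀ y : ℝ, y ^ (2 - 1) • Set.indicator (Set.Icc r ρ) (fun y => (y ^ 2)⁻¹) y =
        Set.indicator (Set.Icc r ρ) (fun y => y⁻¹) y := by
      intro y
      by_cases h : y ∈ Set.Icc r ρ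
      · rw [Set.indicator_of_mem h, Set.indicator_of_mem h, smul_eq_mul]
        have : y ≠ 0 := (hr.trans_le h.1).ne'
        norm_num
        field_simp
      · rw [Set.indicator_of_notMem h, Set.indicator_of_notMem h, smul_zero]
    simp_rw [e1]
    have e2 : Set.Ioi (0 : ℝ) ∩ Set.Icc r ρ = Set.Icc r ρ :=
      Set.inter_eq_self_of_subset_right (fun y hy => hr.trans_le hy.1)
    rw [setIntegral_indicator measurableSet_Icc, e2, integral_Icc_eq_integral_Ioc,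
      ← intervalIntegral.integral_of_le hρ.le, integral_inv_of_pos hr (hr.trans hρ)]
  rw [h2, Complex.finrank_real_complex]
  simp [Measure.real]
  ring

theorem polar_integrable_zero {r ρ : ℝ} (hr : 0 < r) :
    Integrable (Set.indicator {z : ℂ | r ≤ ‖z‖ ∧ ‖z‖ ≤ ρ} (fun z => (‖z‖ ^ 2)⁻¹)) := by
  have hm : MeasurableSet {z : ℂ | r ≤ ‖z‖ ∧ ‖z‖ ≤ ρ} :=
    (measurableSet_le measurable_const measurable_norm).inter
      (measurableSet_le measurable_norm measurable_const)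
  rw [integrable_indicator_iff hm]
  have hfin : volume {z : ℂ | r ≤ ‖z‖ ∧ ‖z‖ ≤ ρ} ≠ ⊤ := by
    refine ne_top_of_le_ne_top (isCompact_closedBall (0 : ℂ) ρ).measure_ne_top
      (measure_mono fun z hz => ?_)
    rw [mem_closedBall_zero_iff]
    exact hz.2
  refine Measure.integrableOn_of_bounded (M := (r ^ 2)⁻¹) hfin ?_ ?_
  · exact ((measurable_norm.pow_const 2).inv).aestronglyMeasurable
  · filter_upwards [ae_restrict_mem hm] with z hz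
    rw [Real.norm_of_nonneg (by positivity)]
    exact inv_anti₀ (by positivity) (pow_le_pow_left₀ hr.le hz.1 2)

theorem polar (z0 : ℂ) {r ρ : ℝ} (hr : 0 < r) (hρ : r < ρ) :
    Integrable (Set.indicator {z : ℂ | r ≤ ‖z - z0‖ ∧ ‖z - z0‖ ≤ ρ}
      (fun z => (‖z - z0‖ ^ 2)⁻¹)) ∧
    ∫ z : ℂ, Set.indicator {z : ℂ | r ≤ ‖z - z0‖ ∧ ‖z - z0‖ ≤ ρ}
      (fun z => (‖z - z0‖ ^ 2)⁻¹) z = 2 * Real.pi * Real.log (ρ / r) := by
  have e : (Set.indicator {z : ℂ | r ≤ ‖z - z0‖ ∧ ‖z - z0‖ ≤ ρ}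
      (fun z => (‖z - z0‖ ^ 2)⁻¹)) =
      fun z => (Set.indicator {z : ℂ | r ≤ ‖z‖ ∧ ‖z‖ ≤ ρ} (fun z => (‖z‖ ^ 2)⁻¹)) (z - z0) := by
    funext z
    rfl
  rw [e]
  refine ⟨(polar_integrable_zero hr).comp_sub_right z0, ?_⟩
  rw [integral_sub_right_eq_self (fun z => Set.indicator {z : ℂ | r ≤ ‖z‖ ∧ ‖z‖ ≤ ρ}
    (fun z => (‖z‖ ^ 2)⁻¹) z) z0]
  exact polar_zero hr hρ

end Vale.Agent.P155.K1
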