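import Vale.Agent.P155.Defs2

/-!
# P155 block K1: abstract extraction and transfer

`extract_abs`: subsequential limits of laws on a compact metrizable space.
`transfer_abs`: on the closed set of limit points of the configurations, every family of
functionals which converges along every convergent sequence of configurations converges in mean.
-/

namespace Vale.Agent.P155.K1

open MeasureTheory Filter Topology TopologicalSpace

section Law

variable {St : Type*} [MeasurableSpace St]

/-- The law of `X` under the uniform measure on pairs of matchings. -/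
noncomputable def law (V : Finset Pt) (X : Conf → St) : Measure St :=
  ((DD V).card : ENNReal)⁻¹ • ∑ ω ∈ DD V, Measure.dirac (X ω)

theorem isProb_law {V : Finset Pt} (hV : (DD V).Nonempty) (X : Conf → St) :
    IsProbabilityMeasure (law V X) := by
  constructor
  simp only [law, Measure.smul_apply, Measure.coe_finsetSum, Finset.sum_apply,
    Measure.dirac_apply_of_mem (Set.mem_univ _), Finset.sum_const, nsmul_eq_mul, mul_one,
    smul_eq_mul]
  exact ENNReal.inv_mul_cancel (by exact_mod_cast hV.card_pos.ne') (ENNReal.natCast_ne_top _)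

theorem law_eq_one {V : Finset Pt} (hV : (DD V).Nonempty) (X : Conf → St) {C : Set St}
    (h : ∀ ω ∈ DD V, X ω ∈ C) : law V X C = 1 := by
  simp only [law, Measure.smul_apply, Measure.coe_finsetSum, Finset.sum_apply, smul_eq_mul]
  rw [Finset.sum_congr rfl (fun ω hω => Measure.dirac_apply_of_mem (h ω hω))]
  simp only [Finset.sum_const, nsmul_eq_mul, mul_one]
  exact ENNReal.inv_mul_cancel (by exact_mod_cast hV.card_pos.ne') (ENNReal.natCast_ne_top _)

theorem integral_law {E : Type*} [NormedAddCommGroup E] [NormedSpace ℝ E] [CompleteSpace E]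
    [MeasurableSpace E] [BorelSpace E] [SecondCountableTopology E]
    (V : Finset Pt) (X : Conf → St) {f : St → E} (hf : Measurable f) :
    ∫ x, f x ∂(law V X) = Ex V (fun ω => f (X ω)) := by
  rw [law, integral_smul_measure, Ex]
  congr 1
  · simp
  · rw [integral_finsetSum_measure]
    · exact Finset.sum_congr rfl (fun ω _ => integral_dirac' _ _ hf.stronglyMeasurable)
    · intro ω _
      exact (integrable_dirac' hf.stronglyMeasurable (by simp))

end Law

theorem norm_Ex_sub_le {V : Finset Pt} (hV : (DD V).Nonempty) {a b : Conf → ℂ} {ε : ℝ}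
    (h : ∀ ω ∈ DD V, ‖a ω - b ω‖ ≤ ε) : ‖Ex V a - Ex V b‖ ≤ ε := by
  have hc : (0 : ℝ) < ((DD V).card : ℝ) := by exact_mod_cast hV.card_pos
  rw [Ex, Ex, ← smul_sub, ← Finset.sum_sub_distrib, norm_smul, Real.norm_eq_abs,
    abs_of_nonneg (inv_nonneg.2 hc.le)]
  have h1 : ‖∑ ω ∈ DD V, (a ω - b ω)‖ ≤ ((DD V).card : ℝ) * ε := by
    refine (norm_sum_le _ _).trans ?_
    refine (Finset.sum_le_sum h).trans ?_
    simp
  calc ((DD V).card : ℝ)⁻¹ * ‖∑ ω ∈ DD V, (a ω - b ω)‖
      ≤ ((DD V).card : ℝ)⁻¹ * (((DD V).card : ℝ) * ε) := by gcongr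
    _ = ε := by field_simp

section Extract

set_option linter.unusedSectionVars false

variable {St : Type*} [TopologicalSpace St] [MeasurableSpace St] [BorelSpace St]

/-- The law as a probability measure. -/
noncomputable def lawP (V : ℕ → Finset Pt) (hV : ∀ n, (DD (V n)).Nonempty) (X : ℕ → Conf → St)
    (n : ℕ) : ProbabilityMeasure St :=
  ⟨law (V n) (X n), isProb_law (hV n) (X n)⟩

theorem extract_abs [CompactSpace St] [MetrizableSpace St] (V : ℕ → Finset Pt)
    (hV : ∀ n, (DD (V n)).Nonempty) (X : ℕ → Conf → St) :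
    ∃ ms : ℕ → ℕ, StrictMono ms ∧ ∃ μ : ProbabilityMeasure St,
      Tendsto (fun j => lawP V hV X (ms j)) atTop (𝓝 μ) := by
  obtain ⟨μ, ms, hms, h⟩ := CompactSpace.tendsto_subseq (lawP V hV X)
  exact ⟨ms, hms, μ, h⟩

/-- The set of limit points of the configurations. -/
def LP (V : ℕ → Finset Pt) (X : ℕ → Conf → St) : Set St :=
  ⋂ N : ℕ, closure {s | ∃ n ≥ N, ∃ ω ∈ DD (V n), X n ω = s}

theorem isClosed_LP (V : ℕ → Finset Pt) (X : ℕ → Conf → St) : IsClosed (LP V X) :=
  isClosed_iInter (fun _ => isClosed_closure)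

theorem mem_LP_of_tendsto {V : ℕ → Finset Pt} {X : ℕ → Conf → St} {s : St} {n : ℕ → ℕ}
    {ω : ℕ → Conf} (hn : Tendsto n atTop atTop) (hω : ∀ j, ω j ∈ DD (V (n j)))
    (hX : Tendsto (fun j => X (n j) (ω j)) atTop (𝓝 s)) : s ∈ LP V X := by
  rw [LP, Set.mem_iInter]
  intro N
  refine mem_closure_of_tendsto hX ?_
  filter_upwards [hn.eventually_ge_atTop N] with j hj
  exact ⟨n j, hj, ω j, hω j, rfl⟩

end Extract

section Metric

set_option linter.unusedSectionVars false

variable {St : Type*} [MetricSpace St] [MeasurableSpace St] [BorelSpace St]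

theorem exists_seq_of_mem_LP {V : ℕ → Finset Pt} {X : ℕ → Conf → St} {s : St}
    (hs : s ∈ LP V X) (N : ℕ) {ε : ℝ} (hε : 0 < ε) :
    ∃ n ≥ N, ∃ ω ∈ DD (V n), dist (X n ω) s < ε := by
  rw [LP, Set.mem_iInter] at hs
  obtain ⟨b, ⟨n, hn, ω, hω, rfl⟩, hb⟩ := Metric.mem_closure_iff.1 (hs N) ε hε
  exact ⟨n, hn, ω, hω, by rwa [dist_comm]⟩

theorem exists_tendsto_of_mem_LP {V : ℕ → Finset Pt} {X : ℕ → Conf → St} {s : St}
    (hs : s ∈ LP V X) : ∃ (n : ℕ → ℕ) (ω : ℕ → Conf), Tendsto n atTop atTop ∧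
      (∀ j, ω j ∈ DD (V (n j))) ∧ Tendsto (fun j => X (n j) (ω j)) atTop (𝓝 s) := by
  choose n hn ω hω hd using fun j : ℕ => exists_seq_of_mem_LP hs j
    (show (0 : ℝ) < 1 / ((j : ℝ) + 1) by positivity)
  refine ⟨n, ω, tendsto_atTop_mono hn tendsto_id, hω, ?_⟩
  rw [tendsto_iff_dist_tendsto_zero]
  exact squeeze_zero (fun _ => dist_nonneg) (fun j => (hd j).le)
    tendsto_one_div_add_atTop_nhds_zero_nat

theorem measure_LP (V : ℕ → Finset Pt) (hV : ∀ n, (DD (V n)).Nonempty) (X : ℕ → Conf → St)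
    {μ : ProbabilityMeasure St} (hμ : Tendsto (lawP V hV X) atTop (𝓝 μ)) :
    (μ : Measure St) (LP V X)ᶜ = 0 := by
  rw [LP, Set.compl_iInter]
  refine measure_iUnion_null (fun N => ?_)
  set C := closure {s | ∃ n ≥ N, ∃ ω ∈ DD (V n), X n ω = s} with hC
  rw [prob_compl_eq_zero_iff isClosed_closure.measurableSet]
  have h := ProbabilityMeasure.limsup_measure_closed_le_of_tendsto hμ
    (isClosed_closure : IsClosed C)
  have h1 : limsup (fun n => (lawP V hV X n : Measure St) C) atTop = 1 := by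
    have : (fun n => (lawP V hV X n : Measure St) C) =ᶠ[atTop] fun _ => 1 := by
      filter_upwards [eventually_ge_atTop N] with n hn
      exact law_eq_one (hV n) (X n) (fun ω hω => subset_closure ⟨n, hn, ω, hω, rfl⟩)
    rw [limsup_congr this, limsup_const]
  rw [h1] at h
  exact le_antisymm prob_le_one h

/-- **Transfer.** -/
theorem transfer_abs [CompactSpace St] (V : ℕ → Finset Pt) (hV : ∀ n, (DD (V n)).Nonempty)
    (X : ℕ → Conf → St) {μ : ProbabilityMeasure St} (hμ : Tendsto (lawP V hV X) atTop (𝓝 μ))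
    (Y : ℕ → Conf → ℂ) (y : LP V X → ℂ)
    (h : ∀ (s : LP V X) (n : ℕ → ℕ) (ω : ℕ → Conf), Tendsto n atTop atTop →
      (∀ j, ω j ∈ DD (V (n j))) → Tendsto (fun j => X (n j) (ω j)) atTop (𝓝 (s : St)) →
      Tendsto (fun j => Y (n j) (ω j)) atTop (𝓝 (y s))) :
    Continuous y ∧ Tendsto (fun n => Ex (V n) (Y n)) atTop
      (𝓝 (∫ s, y s ∂(Measure.comap Subtype.val (μ : Measure St)))) := by
  -- continuity of `y`
  have hcont : Continuous y := by
    rw [continuous_iff_seqContinuous]
    intro s t hs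
    have hs' : Tendsto (fun i => (s i : St)) atTop (𝓝 (t : St)) :=
      (continuous_subtype_val.tendsto t).comp hs
    have hex : ∀ i : ℕ, ∃ n ≥ i, ∃ ω ∈ DD (V n), dist (X n ω) (s i) < 1 / ((i : ℝ) + 1) ∧
        dist (Y n ω) (y (s i)) < 1 / ((i : ℝ) + 1) := by
      intro i
      obtain ⟨n, ω, hn, hω, hX⟩ := exists_tendsto_of_mem_LP (s i).2
      have hY := h (s i) n ω hn hω hX
      have hpos : (0 : ℝ) < 1 / ((i : ℝ) + 1) := by positivity
      have e1 := (Metric.tendsto_nhds.1 hX) _ hpos
      have e2 := (Metric.tendsto_nhds.1 hY) _ hpos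
      obtain ⟨j, hj1, hj2, hj3⟩ := (e1.and (e2.and (hn.eventually_ge_atTop i))).exists
      exact ⟨n j, hj3, ω j, hω j, hj1, hj2⟩
    choose n hn ω hω hX hY using hex
    have hn' : Tendsto n atTop atTop := tendsto_atTop_mono hn tendsto_id
    have hX' : Tendsto (fun j => X (n j) (ω j)) atTop (𝓝 (t : St)) := by
      rw [tendsto_iff_dist_tendsto_zero] at hs' ⊢
      refine squeeze_zero (fun _ => dist_nonneg) (fun j => dist_triangle _ (s j : St) _) ?_
      have := (squeeze_zero (fun _ => dist_nonneg) (fun j => (hX j).le)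
        tendsto_one_div_add_atTop_nhds_zero_nat).add hs'
      simpa using this
    have hY' := h t n ω hn' hω hX'
    have h1 : Tendsto (fun i => dist (y (s i)) (Y (n i) (ω i))) atTop (𝓝 0) :=
      squeeze_zero (fun _ => dist_nonneg) (fun j => (by rw [dist_comm]; exact (hY j).le))
        tendsto_one_div_add_atTop_nhds_zero_nat
    rw [tendsto_iff_dist_tendsto_zero] at hY' ⊢
    refine squeeze_zero (fun _ => dist_nonneg)
      (fun j => dist_triangle _ (Y (n j) (ω j)) _) ?_
    simpa using h1.add hY'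
  refine ⟨hcont, ?_⟩
  -- extension of `y`
  obtain ⟨g, hg⟩ := ContinuousMap.exists_restrict_eq (isClosed_LP V X) ⟨y, hcont⟩
  have hg' : ∀ s : LP V X, g (s : St) = y s := fun s => by
    have := congrArg (fun f : C(LP V X, ℂ) => f s) hg
    simpa using this
  -- uniform closeness
  have hunif : ∀ ε > 0, ∀ᶠ n in atTop, ∀ ω ∈ DD (V n), dist (Y n ω) (g (X n ω)) ≤ ε := by
    intro ε hε
    by_contra hcon
    rw [not_eventually] at hcon
    obtain ⟨n, hn, hn'⟩ := Filter.extraction_of_frequently_atTop hcon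
    have hn2 : ∀ j, ∃ ω ∈ DD (V (n j)), ε < dist (Y (n j) ω) (g (X (n j) ω)) := by
      intro j
      have := hn' j
      push Not at this
      exact this
    choose ω hω hd using hn2
    obtain ⟨s, φ, hφ, hs⟩ := CompactSpace.tendsto_subseq (fun j => X (n j) (ω j))
    have hnφ : Tendsto (fun j => n (φ j)) atTop atTop := hn.tendsto_atTop.comp hφ.tendsto_atTop
    have hsLP : s ∈ LP V X := mem_LP_of_tendsto hnφ (fun j => hω (φ j)) hs
    have hY := h ⟨s, hsLP⟩ (fun j => n (φ j)) (fun j => ω (φ j)) hnφ (fun j => hω (φ j)) hs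
    have hG : Tendsto (fun j => g (X (n (φ j)) (ω (φ j)))) atTop (𝓝 (g s)) :=
      (g.continuous.tendsto s).comp hs
    rw [← hg' ⟨s, hsLP⟩] at hY
    have h0 := hY.dist hG
    rw [dist_self] at h0
    exact absurd (ge_of_tendsto' h0 (fun j => (hd (φ j)).le)) (not_le.2 hε)
  -- means
  have hint : ∫ s, y s ∂(Measure.comap Subtype.val (μ : Measure St)) = ∫ s, g s ∂(μ : Measure St) := by
    have hm : MeasurableSet (LP V X) := (isClosed_LP V X).measurableSet
    have e1 : ∫ s : LP V X, y s ∂(Measure.comap Subtype.val (μ : Measure St)) =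
        ∫ s : LP V X, g (s : St) ∂(Measure.comap Subtype.val (μ : Measure St)) :=
      integral_congr_ae (Eventually.of_forall (fun s => (hg' s).symm))
    rw [e1, integral_subtype_comap hm (fun s => g s), setIntegral_eq_integral_of_ae_compl_eq_zero]
    have h0 := measure_LP V hV X hμ
    have h1 : ∀ᵐ x ∂(μ : Measure St), x ∈ LP V X := by
      rw [ae_iff]
      exact h0
    filter_upwards [h1] with x hx hx'
    exact absurd hx hx'
  rw [hint]
  have hlim : Tendsto (fun n => Ex (V n) (fun ω => g (X n ω))) atTop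
      (𝓝 (∫ s, g s ∂(μ : Measure St))) := by
    have := (ProbabilityMeasure.tendsto_iff_forall_integral_rclike_tendsto ℂ).1 hμ
      (BoundedContinuousFunction.mkOfCompact g)
    refine this.congr (fun n => ?_)
    exact integral_law (V n) (X n) g.continuous.measurable
  have hdiff : Tendsto (fun n => Ex (V n) (Y n) - Ex (V n) (fun ω => g (X n ω))) atTop (𝓝 0) := by
    rw [Metric.tendsto_atTop']
    intro ε hε
    obtain ⟨N, hN⟩ := eventually_atTop.1 (hunif (ε / 2) (by positivity))
    refine ⟨N, fun n hn => ?_⟩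
    rw [dist_zero_right]
    exact (norm_Ex_sub_le (hV n) (fun ω hω => by
      rw [← dist_eq_norm]
      exact hN n hn.le ω hω)).trans_lt (by linarith)
  simpa using hdiff.add hlim

end Metric

end Vale.Agent.P155.K1
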