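import Vale.Agent.P155.K1.Hk
import Vale.Agent.P155.K.Cell
import Mathlib.MeasureTheory.Function.AEEqOfIntegral

/-!
# P155 block K1: the height functions as elements of a weak-star compact set
-/

namespace Vale.Agent.P155.K1

open Vale.Agent.P155 Finset MeasureTheory Filter Topology

/-! ### squares and cells -/

theorem sqr_eq (δ : ℝ) (hδ : 0 < δ) (a : ℂ) (f : Pt) :
    sqr δ a f = Complex.measurableEquivRealProd ⁻¹'
      (Set.Icc (a.re + δ * f.1) (a.re + δ * (f.1 + 1)) ×ˢ
        Set.Icc (a.im + δ * f.2) (a.im + δ * (f.2 + 1))) := by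
  ext z
  simp only [sqr, Set.mem_ofPred_eq, Set.mem_preimage, Complex.measurableEquivRealProd_apply,
    Set.mem_prod, Set.mem_Icc]
  constructor
  · rintro ⟨s, t, hs0, hs1, ht0, ht1, rfl⟩
    simp
    refine ⟨⟨?_, ?_⟩, ?_, ?_⟩ <;> nlinarith
  · rintro ⟨⟨h1, h2⟩, h3, h4⟩
    refine ⟨(z.re - a.re) / δ - f.1, (z.im - a.im) / δ - f.2, ?_, ?_, ?_, ?_, ?_⟩
    · rw [sub_nonneg, le_div_iff₀ hδ]; linarith
    · rw [sub_le_iff_le_add, div_le_iff₀ hδ]; linarith
    · rw [sub_nonneg, le_div_iff₀ hδ]; linarith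
    · rw [sub_le_iff_le_add, div_le_iff₀ hδ]; linarith
    · apply Complex.ext
      · simp
        field_simp
        ring
      · simp
        field_simp
        ring

theorem volume_sqr (δ : ℝ) (hδ : 0 < δ) (a : ℂ) (f : Pt) :
    volume (sqr δ a f) = ENNReal.ofReal (δ ^ 2) := by
  rw [sqr_eq δ hδ, Complex.volume_preserving_equiv_real_prod.measure_preimage
    (measurableSet_Icc.prod measurableSet_Icc).nullMeasurableSet, Measure.volume_eq_prod,
    Measure.prod_prod, Real.volume_Icc, Real.volume_Icc, ← ENNReal.ofReal_mul (by nlinarith)]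
  congr 1
  ring

theorem cell_sub_sqr (δ : ℝ) (hδ : 0 < δ) (a : ℂ) (f : Pt) :
    K.cell δ a ⁻¹' {f} ⊆ sqr δ a f := by
  intro z hz
  rw [sqr_eq δ hδ]
  simp only [Set.mem_preimage, Set.mem_singleton_iff] at hz
  obtain ⟨h1, h2⟩ := (K.cell_eq_iff hδ).1 hz
  simp only [Set.mem_preimage, Complex.measurableEquivRealProd_apply, Set.mem_prod]
  exact ⟨Set.Ico_subset_Icc_self h1, Set.Ico_subset_Icc_self h2⟩

theorem cell_ae_sqr (δ : ℝ) (hδ : 0 < δ) (a : ℂ) (f : Pt) :
    (K.cell δ a ⁻¹' {f} : Set ℂ) =ᵐ[volume] sqr δ a f := by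
  apply ae_eq_of_subset_of_measure_ge (cell_sub_sqr δ hδ a f)
  · rw [volume_sqr δ hδ, K.volume_cell hδ]
  · exact (K.measurable_cell δ a (measurableSet_singleton f)).nullMeasurableSet
  · rw [volume_sqr δ hδ]
    exact ENNReal.ofReal_ne_top

/-- The step function of the height function `h^{(k)}`. -/
noncomputable def step (δ : ℝ) (a : ℂ) (k : ℕ) (ω : Conf) (z : ℂ) : ℝ :=
  (hk k ω (K.cell δ a z) : ℝ)

theorem measurable_step (δ : ℝ) (a : ℂ) (k : ℕ) (ω : Conf) : Measurable (step δ a k ω) :=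
  (measurable_of_countable (fun f : Pt => (hk k ω f : ℝ))).comp (K.measurable_cell δ a)

theorem abs_step_le {V : Finset Pt} {ω : Conf} (hω : ω ∈ DD V) (δ : ℝ) (a : ℂ) (k : ℕ) (z : ℂ) :
    |step δ a k ω z| ≤ k := by
  unfold step
  exact_mod_cast abs_hk_le hω k (K.cell δ a z)

theorem heightInt_eq {T : Temp} {ω : Conf} (hω : ω ∈ DD T.V) (hT : T.faceSet.Finite) {δ : ℝ}
    (hδ : 0 < δ) (a : ℂ) (k : ℕ) {φ : ℂ → ℝ} (hφ : Integrable φ) :
    heightInt δ a k ω φ = ∫ z, step δ a k ω z * φ z := by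
  classical
  set S := hT.toFinset with hS
  have hsupp : ∀ f, f ∉ S → hk k ω f = 0 := fun f hf => hk_off hω k (by simpa [hS] using hf)
  have e1 : heightInt δ a k ω φ = ∑ f ∈ S, (hk k ω f : ℝ) * ∫ z in sqr δ a f, φ z := by
    unfold heightInt
    apply finsum_eq_sum_of_support_subset
    intro f hf
    by_contra h
    exact hf (by
      show (hk k ω f : ℝ) * ∫ z in sqr δ a f, φ z = 0
      rw [hsupp f (by simpa using h)]; simp)
  have e2 : ∀ z, step δ a k ω z * φ z =
      ∑ f ∈ S, (K.cell δ a ⁻¹' {f}).indicator (fun z => (hk k ω f : ℝ) * φ z) z := by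
    intro z
    unfold step
    by_cases h : K.cell δ a z ∈ S
    · rw [Finset.sum_eq_single (K.cell δ a z)]
      · simp
      · intro y _ hy
        rw [Set.indicator_of_notMem]
        simpa using fun h => hy h.symm
      · intro h'
        exact absurd h h'
    · rw [hsupp _ h]
      simp only [Int.cast_zero, zero_mul]
      symm
      apply Finset.sum_eq_zero
      intro y hy
      rw [Set.indicator_of_notMem]
      simp only [Set.mem_preimage, Set.mem_singleton_iff]
      rintro rfl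
      exact h hy
  have hms : ∀ y, MeasurableSet (K.cell δ a ⁻¹' {y}) := fun y =>
    K.measurable_cell δ a (measurableSet_singleton y)
  rw [e1]
  simp_rw [e2]
  rw [integral_finsetSum]
  · apply Finset.sum_congr rfl
    intro f _
    rw [integral_indicator (hms f), integral_const_mul, setIntegral_congr_set (cell_ae_sqr δ hδ a f)]
  · intro f _
    exact (hφ.const_mul _).indicator (hms f)

/-! ### The compact set of functionals -/

section Dual

set_option linter.unusedSectionVars false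

variable (μ : Measure ℂ) [IsFiniteMeasure μ]

/-- Functionals on `L²(μ)` given by functions bounded by `k`. -/
def DK (k : ℝ) : Set (WeakDual ℝ (Lp ℝ 2 μ)) :=
  {ξ | ∀ φ : Lp ℝ 2 μ, |ξ φ| ≤ k * ∫ z, |φ z| ∂μ}

theorem isClosed_DK (k : ℝ) : IsClosed (DK μ k) := by
  have : DK μ k = ⋂ φ : Lp ℝ 2 μ, {ξ | |ξ φ| ≤ k * ∫ z, |φ z| ∂μ} := by
    ext ξ; simp [DK]
  rw [this]
  exact isClosed_iInter (fun φ => isClosed_le ((WeakDual.eval_continuous φ).abs) continuous_const)

theorem integral_abs_le (φ : Lp ℝ 2 μ) :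
    ∫ z, |φ z| ∂μ ≤ (μ Set.univ).toReal ^ (1 / 2 : ℝ) * ‖φ‖ := by
  have h1 : ∫ z, |φ z| ∂μ = (eLpNorm φ 1 μ).toReal := by
    have := integral_norm_eq_lintegral_enorm (Lp.aestronglyMeasurable φ)
    simp only [Real.norm_eq_abs] at this
    rw [this, eLpNorm_one_eq_lintegral_enorm]
  have h2 := eLpNorm_le_eLpNorm_mul_rpow_measure_univ (p := 1) (q := 2) (μ := μ)
    (by norm_num) (Lp.aestronglyMeasurable φ)
  have hfin : eLpNorm φ 2 μ * μ Set.univ ^ (1 / (1 : ENNReal).toReal - 1 / (2 : ENNReal).toReal) ≠ ⊤ := by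
    apply ENNReal.mul_ne_top (Lp.eLpNorm_ne_top φ)
    apply ENNReal.rpow_ne_top_of_nonneg _ (measure_ne_top _ _)
    norm_num
  rw [h1]
  refine (ENNReal.toReal_mono hfin h2).trans ?_
  rw [ENNReal.toReal_mul, ← ENNReal.toReal_rpow, Lp.norm_def, mul_comm]
  norm_num

theorem isCompact_DK {k : ℝ} (hk : 0 ≤ k) : IsCompact (DK μ k) := by
  apply (WeakDual.isCompact_closedBall (0 : StrongDual ℝ (Lp ℝ 2 μ))
    (k * (μ Set.univ).toReal ^ (1 / 2 : ℝ))).of_isClosed_subset (isClosed_DK μ k)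
  intro ξ hξ
  simp only [Set.mem_preimage, Metric.mem_closedBall, dist_zero_right]
  apply ContinuousLinearMap.opNorm_le_bound _ (by positivity)
  intro φ
  have h1 := hξ φ
  have h2 := integral_abs_le μ φ
  rw [Real.norm_eq_abs]
  calc |ξ φ| ≤ k * ∫ z, |φ z| ∂μ := h1
    _ ≤ k * ((μ Set.univ).toReal ^ (1 / 2 : ℝ) * ‖φ‖) := by gcongr
    _ = _ := by ring

theorem exists_rep {k : ℝ} (hk : 0 ≤ k) (ξ : WeakDual ℝ (Lp ℝ 2 μ)) (hξ : ξ ∈ DK μ k) :
    ∃ g : ℂ → ℝ, Measurable g ∧ (∀ z, |g z| ≤ k) ∧ ∀ φ : Lp ℝ 2 μ, ξ φ = ∫ z, g z * φ z ∂μ := by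
  set g0 : Lp ℝ 2 μ := (InnerProductSpace.toDual ℝ (Lp ℝ 2 μ)).symm (WeakDual.toStrongDual ξ)
    with hg0
  have hξg : ∀ φ : Lp ℝ 2 μ, ξ φ = ∫ z, g0 z * φ z ∂μ := by
    intro φ
    have h1 : ξ φ = inner ℝ g0 φ := by
      rw [hg0, InnerProductSpace.toDual_symm_apply]
      rfl
    rw [h1, L2.inner_def]
    apply integral_congr_ae
    filter_upwards with z
    simp [mul_comm]
  have hgint : Integrable g0 μ := (Lp.memLp g0).integrable (by norm_num)
  have hset : ∀ s, MeasurableSet s → |∫ z in s, g0 z ∂μ| ≤ k * (μ s).toReal := by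
    intro s hs
    have h1 := hξ (indicatorConstLp 2 hs (measure_ne_top μ s) (1 : ℝ))
    rw [hξg] at h1
    have h2 : ∫ z, g0 z * (indicatorConstLp 2 hs (measure_ne_top μ s) (1 : ℝ)) z ∂μ =
        ∫ z in s, g0 z ∂μ := by
      rw [← integral_indicator hs]
      apply integral_congr_ae
      filter_upwards [indicatorConstLp_coeFn (p := 2) (hs := hs) (hμs := measure_ne_top μ s)
        (c := (1 : ℝ))] with z hz
      rw [hz]
      by_cases h : z ∈ s <;> simp [h]
    have h3 : ∫ z, |(indicatorConstLp 2 hs (measure_ne_top μ s) (1 : ℝ)) z| ∂μ = (μ s).toReal := by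
      have : ∫ z, |(indicatorConstLp 2 hs (measure_ne_top μ s) (1 : ℝ)) z| ∂μ =
          ∫ z, s.indicator (fun _ => (1 : ℝ)) z ∂μ := by
        apply integral_congr_ae
        filter_upwards [indicatorConstLp_coeFn (p := 2) (hs := hs) (hμs := measure_ne_top μ s)
          (c := (1 : ℝ))] with z hz
        rw [hz]
        by_cases h : z ∈ s <;> simp [h]
      rw [this, integral_indicator_const _ hs]
      simp [Measure.real]
    rwa [h2, h3] at h1
  have hle : ∀ᵐ z ∂μ, g0 z ≤ k := by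
    apply ae_le_of_forall_setIntegral_le hgint (integrable_const k)
    intro s hs _
    rw [setIntegral_const, smul_eq_mul, Measure.real, mul_comm]
    exact (le_abs_self _).trans (hset s hs)
  have hge : ∀ᵐ z ∂μ, -g0 z ≤ k := by
    apply ae_le_of_forall_setIntegral_le hgint.neg (integrable_const k)
    intro s hs _
    rw [setIntegral_const, smul_eq_mul, Measure.real, mul_comm]
    have : ∫ z in s, (-⇑g0) z ∂μ = - ∫ z in s, g0 z ∂μ := by
      rw [← integral_neg]; rfl
    rw [this]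
    exact (neg_le_abs _).trans (hset s hs)
  refine ⟨fun z => max (-k) (min k (g0 z)), ?_, ?_, ?_⟩
  · exact measurable_const.max (measurable_const.min (Lp.stronglyMeasurable g0).measurable)
  · intro z
    rw [abs_le]
    exact ⟨le_max_left _ _, max_le (by linarith) (min_le_left _ _)⟩
  · intro φ
    rw [hξg]
    apply integral_congr_ae
    filter_upwards [hle, hge] with z h1 h2
    rw [min_eq_right h1, max_eq_right (by linarith)]

end Dual

end Vale.Agent.P155.K1
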