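import Vale.Agent.P155.HT426.Cov
import Vale.Agent.P155.L.Expl
import Vale.Agent.P155.FinalStmt

/-!
# P155 block K1: the height functions `h^{(k)}`: bounds, support, increments
-/

namespace Vale.Agent.P155.K1

open Vale.Agent.P155 Finset

variable {V : Finset Pt} {ω : Conf}

open Classical in
theorem hk_succ_sub (hω : ω ∈ DD V) (k : ℕ) (f : Pt) :
    hk (k + 1) ω f - hk k ω f =
      ∑ A ∈ (HT.LF ω).filter (fun A => level ω A = k + 1 ∧ surr ω A f), HT.sign ω A := by
  have h1 := HT.h_sub_hk hω k f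
  have h2 := HT.h_sub_hk hω (k + 1) f
  have e : (HT.LF ω).filter (fun A => k < level ω A ∧ surr ω A f) =
      (HT.LF ω).filter (fun A => k + 1 < level ω A ∧ surr ω A f) ∪
      (HT.LF ω).filter (fun A => level ω A = k + 1 ∧ surr ω A f) := by
    ext A
    simp only [Finset.mem_filter, Finset.mem_union]
    constructor
    · rintro ⟨h3, h4, h5⟩
      rcases Nat.lt_or_eq_of_le (Nat.succ_le_of_lt h4) with h6 | h6
      · exact Or.inl ⟨h3, h6, h5⟩
      · exact Or.inr ⟨h3, h6.symm, h5⟩
    · rintro (⟨h3, h4, h5⟩ | ⟨h3, h4, h5⟩)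
      · exact ⟨h3, by omega, h5⟩
      · exact ⟨h3, by omega, h5⟩
  rw [e, Finset.sum_union] at h1
  · linarith
  · rw [Finset.disjoint_left]
    intro A hA hB
    have h3 := (Finset.mem_filter.1 hA).2.1
    have h4 := (Finset.mem_filter.1 hB).2.1
    omega

open Classical in
/-- the level `k+1` increment at a face surrounded by at least `k+1` loops is a sign -/
theorem hk_succ_sub_pm (hω : ω ∈ DD V) {k : ℕ} {f : Pt} (hf : k + 1 ≤ N ω f) :
    hk (k + 1) ω f - hk k ω f = 1 ∨ hk (k + 1) ω f - hk k ω f = -1 := by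
  rw [hk_succ_sub hω]
  have hN : k + 1 ≤ L.num (Loops ω) (L.intr ω) f := by rw [← L.N_eq]; exact hf
  obtain ⟨A, hA, hs, hl⟩ := (L.laminar hω).exists_lev (by omega) hN
  have hsing : (HT.LF ω).filter (fun A => level ω A = k + 1 ∧ surr ω A f) = {A} := by
    ext B
    simp only [Finset.mem_filter, Finset.mem_singleton, HT.mem_LF hω]
    constructor
    · rintro ⟨h1, h2, h3⟩
      exact (L.laminar hω).lev_inj h1 hA h3 hs (by rw [hl, ← L.level_eq]; exact h2)
    · rintro rfl
      exact ⟨hA, by rw [L.level_eq]; exact hl, hs⟩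
  rw [hsing, Finset.sum_singleton]
  exact HT.sign_pm hω hA

open Classical in
theorem hk_succ_sub_zero (hω : ω ∈ DD V) {k : ℕ} {f : Pt} (hf : N ω f ≤ k) :
    hk (k + 1) ω f - hk k ω f = 0 := by
  rw [hk_succ_sub hω, Finset.sum_eq_zero]
  intro A hA
  rw [Finset.mem_filter] at hA
  have := HT.level_le_N hω hA.2.2
  omega

theorem abs_hk_le (hω : ω ∈ DD V) (k : ℕ) (f : Pt) : |hk k ω f| ≤ k := by
  induction k with
  | zero => rw [HT.hk_zero hω]; simp
  | succ k ih =>
    rw [abs_le] at ih ⊢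
    rcases le_or_gt (k + 1) (N ω f) with h | h
    · rcases hk_succ_sub_pm hω h with h' | h'
      · push_cast; omega
      · push_cast; omega
    · have h' := hk_succ_sub_zero hω (k := k) (f := f) (by omega)
      push_cast; omega

/-- `h^{(k)}` vanishes off the polygon. -/
theorem hk_off {T : Temp} (hω : ω ∈ DD T.V) (k : ℕ) {f : Pt} (hf : f ∉ T.faceSet) :
    hk k ω f = 0 := by
  induction k with
  | zero => exact HT.hk_zero hω f
  | succ k ih =>
    have h' := hk_succ_sub_zero hω (k := k) (f := f)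
      (by rw [L.N_eq_zero_of_notMem hω hf]; exact Nat.zero_le _)
    omega

/-- the increment is the same on adjacent faces of `O^{(k+1)}` -/
theorem hk_succ_sub_adj (hω : ω ∈ DD V) {k : ℕ} {f g : Pt} (hfg : Adj f g)
    (hf : k + 1 ≤ N ω f) (hg : k + 1 ≤ N ω g) :
    hk (k + 1) ω f - hk k ω f = hk (k + 1) ω g - hk k ω g := by
  rw [HT.hk_adj hω hfg hf hg, HT.hk_adj hω hfg (by omega) (by omega)]

end Vale.Agent.P155.K1
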