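import Vale.Agent.P155.K1.Field
import Vale.Agent.P155.K1.Abs
import Vale.Agent.P155.K.Conn2
import Vale.Agent.P155.A.TempMain

/-!
# P155 block K1: the compact state space, subsequential limits and transfer
-/

namespace Vale.Agent.P155.K1

open Vale.Agent.P155 Finset MeasureTheory Filter Topology TopologicalSpace

/-! ### components of the state space -/

/-- nonempty compact subsets of the closed ball of radius `r` -/
abbrev CB (r : ℝ) : Type := {K : NonemptyCompacts ℂ // (K : Set ℂ) ⊆ Metric.closedBall 0 r}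

instance (r : ℝ) : CompactSpace (CB r) :=
  isCompact_iff_compactSpace.mp
    (NonemptyCompacts.isCompact_subsets_of_isCompact (isCompact_closedBall 0 r))

instance (r : ℝ) : MetrizableSpace (CB r) := inferInstance

/-- the field component -/
abbrev DKt (μ : Measure ℂ) (k : ℕ) : Type := {ξ : WeakDual ℝ (Lp ℝ 2 μ) // ξ ∈ DK μ k}

instance (μ : Measure ℂ) [IsFiniteMeasure μ] (k : ℕ) : CompactSpace (DKt μ k) :=
  isCompact_iff_compactSpace.mp (isCompact_DK μ (Nat.cast_nonneg k))

instance (μ : Measure ℂ) [IsFiniteMeasure μ] (k : ℕ) : MetrizableSpace (DKt μ k) :=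
  haveI : Fact ((2 : ENNReal) ≠ ⊤) := ⟨by norm_num⟩
  WeakDual.metrizable_of_isCompact ℝ (Lp ℝ 2 μ) _ (isCompact_DK μ (Nat.cast_nonneg k))

/-- The state space. -/
abbrev St (r : ℝ) (μ : Measure ℂ) : Type := (ℕ → CB r) × (∀ k : ℕ, DKt μ k)

instance (r : ℝ) (μ : Measure ℂ) [IsFiniteMeasure μ] : CompactSpace (St r μ) := inferInstance
instance (r : ℝ) (μ : Measure ℂ) [IsFiniteMeasure μ] : MetrizableSpace (St r μ) := inferInstance

/-! ### the discrete states -/

section Discrete

variable (μ : Measure ℂ) [IsFiniteMeasure μ]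

theorem step_memLp {V : Finset Pt} {ω : Conf} (hω : ω ∈ DD V) (δ : ℝ) (a : ℂ) (k : ℕ) :
    MemLp (step δ a k ω) 2 μ :=
  MemLp.of_bound (measurable_step δ a k ω).aestronglyMeasurable (k : ℝ)
    (Eventually.of_forall fun z => by rw [Real.norm_eq_abs]; exact abs_step_le hω δ a k z)

open Classical in
/-- the field component of the discrete state -/
noncomputable def fieldPart (V : Finset Pt) (δ : ℝ) (a : ℂ) (k : ℕ) (ω : Conf) :
    WeakDual ℝ (Lp ℝ 2 μ) :=
  if h : ω ∈ DD V then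
    StrongDual.toWeakDual
      (InnerProductSpace.toDual ℝ (Lp ℝ 2 μ) ((step_memLp μ h δ a k).toLp (step δ a k ω)))
  else 0

theorem fieldPart_apply {V : Finset Pt} {ω : Conf} (hω : ω ∈ DD V) (δ : ℝ) (a : ℂ) (k : ℕ)
    (φ : Lp ℝ 2 μ) : fieldPart μ V δ a k ω φ = ∫ z, step δ a k ω z * φ z ∂μ := by
  unfold fieldPart
  rw [dif_pos hω]
  change inner ℝ ((step_memLp μ hω δ a k).toLp (step δ a k ω)) φ = _
  rw [L2.inner_def]
  apply integral_congr_ae
  filter_upwards [(step_memLp μ hω δ a k).coeFn_toLp] with z hz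
  rw [hz]
  simp [mul_comm]

theorem fieldPart_mem (V : Finset Pt) (δ : ℝ) (a : ℂ) (k : ℕ) (ω : Conf) :
    fieldPart μ V δ a k ω ∈ DK μ k := by
  by_cases hω : ω ∈ DD V
  · intro φ
    have hφ : Integrable (fun z => |φ z|) μ := ((Lp.memLp φ).integrable (by norm_num)).abs
    rw [fieldPart_apply μ hω, ← integral_const_mul]
    refine (abs_integral_le_integral_abs).trans ?_
    apply integral_mono_of_nonneg (Eventually.of_forall fun _ => abs_nonneg _) (hφ.const_mul _)
    filter_upwards with z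
    rw [abs_mul]
    exact mul_le_mul_of_nonneg_right (abs_step_le hω δ a k z) (abs_nonneg _)
  · intro φ
    unfold fieldPart
    rw [dif_neg hω]
    have : 0 ≤ ∫ z, |φ z| ∂μ := integral_nonneg fun _ => abs_nonneg _
    show |(0 : ℝ)| ≤ _
    rw [abs_zero]
    positivity

end Discrete

/-! ### the discrete state of a configuration -/

section Main

variable {Ω : Set ℂ}

open Classical in
/-- The gasket component. -/
noncomputable def gasketPart (r : ℝ) (hr : 0 ≤ r) (δ : ℝ) (a : ℂ) (T : Temp) (k : ℕ) (ω : Conf) :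
    CB r :=
  if h : (toNC (gasket δ a T k ω) : Set ℂ) ⊆ Metric.closedBall 0 r then
    ⟨toNC (gasket δ a T k ω), h⟩
  else ⟨⟨⟨{0}, isCompact_singleton⟩, by simp⟩, by simpa using hr⟩

/-- the state of a configuration -/
noncomputable def stateOf (S : TempApprox Ω) (r : ℝ) (hr : 0 ≤ r) (μ : Measure ℂ)
    [IsFiniteMeasure μ] (n : ℕ) (ω : Conf) : St r μ :=
  (fun k => gasketPart r hr (S.δ n) (S.a n) (S.T n) k ω,
    fun k => ⟨fieldPart μ (S.T n).V (S.δ n) (S.a n) k ω, fieldPart_mem μ _ _ _ k ω⟩)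

/-- a family of data is the limit of a sequence of configurations -/
structure LimOf (S : TempApprox Ω) (n : ℕ → ℕ) (ω : ℕ → Conf) (G : ℕ → NonemptyCompacts ℂ)
    (H : ℕ → (ℂ → ℝ) → ℝ) : Prop where
  lim : Tendsto n atTop atTop
  mem : ∀ j, ω j ∈ DD (S.T (n j)).V
  gasket : ∀ k, Tendsto (fun j => toNC (gasket (S.δ (n j)) (S.a (n j)) (S.T (n j)) k (ω j))) atTop
    (𝓝 (G k))
  field : ∀ k φ, IsTest Ω φ →
    Tendsto (fun j => heightInt (S.δ (n j)) (S.a (n j)) k (ω j) φ) atTop (𝓝 (H k φ))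

/-- the gaskets of a state -/
def Gs (r : ℝ) (μ : Measure ℂ) (k : ℕ) (x : St r μ) : NonemptyCompacts ℂ := (x.1 k).1

open Classical in
/-- the fields of a state -/
noncomputable def Hs (r : ℝ) (μ : Measure ℂ) (k : ℕ) (x : St r μ) (φ : ℂ → ℝ) : ℝ :=
  if h : MemLp φ 2 μ then (x.2 k).1 (h.toLp φ) else 0

theorem continuous_Gs (r : ℝ) (μ : Measure ℂ) (k : ℕ) : Continuous (Gs r μ k) :=
  continuous_subtype_val.comp ((continuous_apply k).comp continuous_fst)

theorem continuous_Hs (r : ℝ) (μ : Measure ℂ) (k : ℕ) (φ : ℂ → ℝ) :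
    Continuous (fun x => Hs r μ k x φ) := by
  by_cases h : MemLp φ 2 μ
  · have : (fun x => Hs r μ k x φ) = fun x : St r μ => (x.2 k).1 (h.toLp φ) := by
      funext x; unfold Hs; rw [dif_pos h]
    rw [this]
    exact (WeakDual.eval_continuous (h.toLp φ)).comp
      (continuous_subtype_val.comp ((continuous_apply k).comp continuous_snd))
  · have : (fun x => Hs r μ k x φ) = fun x : St r μ => (0 : ℝ) := by
      funext x; unfold Hs; rw [dif_neg h]
    rw [this]
    exact continuous_const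

theorem test_memLp {U : Set ℂ} {φ : ℂ → ℝ} (h : IsTest U φ) (p : ENNReal) (μ : Measure ℂ)
    [IsFiniteMeasureOnCompacts μ] : MemLp φ p μ :=
  h.1.continuous.memLp_of_hasCompactSupport h.2.1

theorem test_integrable {U : Set ℂ} {φ : ℂ → ℝ} (h : IsTest U φ) : Integrable φ :=
  h.1.continuous.integrable_of_hasCompactSupport h.2.1

theorem test_zero_off {U : Set ℂ} {φ : ℂ → ℝ} (h : IsTest U φ) {z : ℂ} (hz : z ∉ U) : φ z = 0 := by
  by_contra h'
  exact hz (h.2.2 (subset_tsupport φ h'))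

theorem Hs_stateOf (S : TempApprox Ω) (r : ℝ) (hr : 0 ≤ r) (hΩ : MeasurableSet Ω)
    [IsFiniteMeasure (volume.restrict Ω)] (n k : ℕ) {ω : Conf} (hω : ω ∈ DD (S.T n).V)
    {φ : ℂ → ℝ} (hφ : IsTest Ω φ) :
    Hs r (volume.restrict Ω) k (stateOf S r hr (volume.restrict Ω) n ω) φ =
      heightInt (S.δ n) (S.a n) k ω φ := by
  have hm : MemLp φ 2 (volume.restrict Ω) := (test_memLp hφ 2 volume).restrict Ω
  unfold Hs
  rw [dif_pos hm]
  show fieldPart (volume.restrict Ω) (S.T n).V (S.δ n) (S.a n) k ω (hm.toLp φ) = _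
  rw [fieldPart_apply _ hω, heightInt_eq hω (Skel.a_fin (S.T n)).2.1 (S.pos n) _ _ (test_integrable hφ)]
  have e1 : ∫ z in Ω, step (S.δ n) (S.a n) k ω z * (hm.toLp φ) z =
      ∫ z in Ω, step (S.δ n) (S.a n) k ω z * φ z := by
    apply integral_congr_ae
    filter_upwards [hm.coeFn_toLp] with z hz
    rw [hz]
  rw [e1, ← integral_indicator hΩ]
  congr 1
  funext z
  by_cases hz : z ∈ Ω
  · rw [Set.indicator_of_mem hz]
  · rw [Set.indicator_of_notMem hz, test_zero_off hφ hz, mul_zero]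

theorem limOf_of_tendsto (S : TempApprox Ω) (r : ℝ) (hr : 0 ≤ r) (hΩ : MeasurableSet Ω)
    [IsFiniteMeasure (volume.restrict Ω)]
    (hreg : ∀ᶠ n in atTop, region (S.δ n) (S.a n) (S.T n).faceSet ⊆ Metric.closedBall 0 r)
    {n : ℕ → ℕ} {ω : ℕ → Conf} (hn : Tendsto n atTop atTop) (hω : ∀ j, ω j ∈ DD (S.T (n j)).V)
    {x : St r (volume.restrict Ω)}
    (hx : Tendsto (fun j => stateOf S r hr (volume.restrict Ω) (n j) (ω j)) atTop (𝓝 x)) :
    LimOf S n ω (fun k => Gs r (volume.restrict Ω) k x) (fun k => Hs r (volume.restrict Ω) k x) := by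
  refine ⟨hn, hω, fun k => ?_, fun k φ hφ => ?_⟩
  · have h1 := ((continuous_Gs r (volume.restrict Ω) k).tendsto x).comp hx
    refine h1.congr' ?_
    filter_upwards [hn.eventually hreg] with j hj
    show ((gasketPart r hr (S.δ (n j)) (S.a (n j)) (S.T (n j)) k (ω j)).1) = _
    unfold gasketPart
    rw [dif_pos]
    rw [KConn.coe_toNC_gasket (S.pos _) _ _ _ (hω j)]
    exact Set.sdiff_subset.trans hj
  · have h1 := ((continuous_Hs r (volume.restrict Ω) k φ).tendsto x).comp hx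
    refine h1.congr (fun j => ?_)
    exact Hs_stateOf S r hr hΩ (n j) k (hω j) hφ

end Main

end Vale.Agent.P155.K1
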